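import Vale.Agent.P201.S.Defs

/-!
P201, part G2 for a general system: asphericity of the presentation implies that the group is
torsion-free.
-/

namespace Vale.Agent.P201.S

open Finset

namespace TF

universe u v

section Act

variable {H : Type u} [Group H] {A : Type v}

/-- left translation on chains -/
noncomputable def sm (g : H) : ((H × A) →₀ ℤ) →+ ((H × A) →₀ ℤ) :=
  Finsupp.mapDomain.addMonoidHom (fun x => (g * x.1, x.2))

theorem sm_single (g h : H) (a : A) (c : ℤ) :
    sm g (Finsupp.single (h, a) c) = Finsupp.single (g * h, a) c := by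
  simp [sm]

theorem sm_one (f : (H × A) →₀ ℤ) : sm (1 : H) f = f := by
  induction f using Finsupp.induction_linear with
  | zero => simp
  | add f g hf hg => rw [map_add, hf, hg]
  | single x c => rw [sm_single, one_mul]

theorem sm_mul (g h : H) (f : (H × A) →₀ ℤ) : sm (g * h) f = sm g (sm h f) := by
  induction f using Finsupp.induction_linear with
  | zero => simp
  | add f g hf hg => rw [map_add, map_add, map_add, hf, hg]
  | single x c =>
    obtain ⟨x, a⟩ := x
    rw [sm_single, sm_single, sm_single, mul_assoc]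

/-- restriction to the elements with first coordinate in `T` -/
noncomputable def sel (T : Set H) : ((H × A) →₀ ℤ) →+ ((H × A) →₀ ℤ) := by
  classical
  exact Finsupp.filterAddHom (fun x => x.1 ∈ T)

theorem sel_single_mem {T : Set H} {h : H} (hh : h ∈ T) (a : A) (c : ℤ) :
    sel T (Finsupp.single (h, a) c) = Finsupp.single (h, a) c := by
  classical
  simp only [sel, Finsupp.filterAddHom]
  exact Finsupp.filter_single_of_pos _ hh

theorem sel_single_not {T : Set H} {h : H} (hh : h ∉ T) (a : A) (c : ℤ) :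
    sel T (Finsupp.single (h, a) c) = 0 := by
  classical
  simp only [sel, Finsupp.filterAddHom]
  exact Finsupp.filter_single_of_neg _ hh

/-- `T` is a set of representatives for left multiplication by the powers of `g` -/
def Rep (g : H) (q : ℕ) (T : Set H) : Prop :=
  ∀ h : H, ∃ i, i < q ∧ (g ^ i)⁻¹ * h ∈ T ∧ ∀ j, j < q → (g ^ j)⁻¹ * h ∈ T → j = i

theorem exists_rep (g : H) (hq : 0 < orderOf g) : ∃ T : Set H, Rep g (orderOf g) T := by
  classical
  obtain ⟨T, hT, -⟩ := Subgroup.exists_isComplement_right (Subgroup.zpowers g) (1 : H)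
  refine ⟨T, fun h => ?_⟩
  obtain ⟨s, hs, huniq⟩ := Subgroup.isComplement_iff_existsUnique_inv_mul_mem.1 hT h
  obtain ⟨⟨k, hk⟩, hk2⟩ : ∃ i : Fin (orderOf g), g ^ (i : ℕ) = (s : H) := by
    have h1 : (s : H) ∈ Subgroup.zpowers g := s.2
    have hfin : IsOfFinOrder g := orderOf_pos_iff.1 hq
    rw [← hfin.mem_powers_iff_mem_zpowers, hfin.mem_powers_iff_mem_range_orderOf] at h1
    obtain ⟨i, hi, hi2⟩ := Finset.mem_image.1 h1
    exact ⟨⟨i, Finset.mem_range.1 hi⟩, hi2⟩
  refine ⟨k, hk, ?_, ?_⟩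
  · have h2 : g ^ k = (s : H) := hk2
    rw [h2]
    exact hs
  · intro j hj hjT
    have h3 := huniq ⟨g ^ j, Subgroup.npow_mem_zpowers g j⟩ hjT
    have h4 : g ^ j = g ^ k := (congrArg Subtype.val h3).trans hk2.symm
    exact pow_injOn_Iio_orderOf hj hk h4

theorem decomp {g : H} {q : ℕ} {T : Set H} (hT : Rep g q T) (f : (H × A) →₀ ℤ) :
    ∑ i ∈ range q, sm (g ^ i) (sel T (sm (g ^ i)⁻¹ f)) = f := by
  induction f using Finsupp.induction_linear with
  | zero => simp
  | add f g hf hg =>
    simp only [map_add, sum_add_distrib]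
    rw [hf, hg]
  | single x c =>
    obtain ⟨h, a⟩ := x
    obtain ⟨i, hi, hi1, hi2⟩ := hT h
    rw [sum_eq_single i]
    · rw [sm_single, sel_single_mem hi1, sm_single, mul_inv_cancel_left]
    · intro j hj hji
      rw [sm_single, sel_single_not, map_zero]
      intro hmem
      exact hji (hi2 j (mem_range.1 hj) hmem)
    · intro hni
      exact absurd (mem_range.2 hi) hni

theorem sm_pow_fix {g : H} {f : (H × A) →₀ ℤ} (h : sm g f = f) (i : ℕ) : sm (g ^ i) f = f := by
  induction i with
  | zero => rw [pow_zero, sm_one]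
  | succ i ih => rw [pow_succ, sm_mul, h, ih]

theorem sm_inv_fix {g : H} {f : (H × A) →₀ ℤ} (h : sm g f = f) : sm g⁻¹ f = f := by
  conv_lhs => rw [← h]
  rw [← sm_mul, inv_mul_cancel, sm_one]

/-- invariants are norms -/
theorem inv_norm {g : H} {q : ℕ} {T : Set H} (hT : Rep g q T) {f : (H × A) →₀ ℤ}
    (h : sm g f = f) : ∃ f' : (H × A) →₀ ℤ, f = ∑ i ∈ range q, sm (g ^ i) f' := by
  refine ⟨sel T f, ?_⟩
  conv_lhs => rw [← decomp hT f]
  refine sum_congr rfl fun i _ => ?_
  rw [sm_inv_fix (sm_pow_fix h i)]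

theorem tele (g : H) (i : ℕ) (y : (H × A) →₀ ℤ) :
    ∃ b : (H × A) →₀ ℤ, sm (g ^ i) y - y = sm g b - b := by
  refine ⟨∑ j ∈ range i, sm (g ^ j) y, ?_⟩
  induction i with
  | zero => simp [sm_one]
  | succ i ih =>
    rw [sum_range_succ, map_add, ← sm_mul g, ← pow_succ']
    have : sm (g ^ (i + 1)) y - y = (sm (g ^ i) y - y) + (sm (g ^ (i + 1)) y - sm (g ^ i) y) := by
      abel
    rw [this, ih]
    abel

/-- elements of norm zero -/
theorem norm_zero {g : H} {q : ℕ} {T : Set H} (hT : Rep g q T) {f : (H × A) →₀ ℤ}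
    (h : ∑ i ∈ range q, sm (g ^ i) f = 0) : ∃ b : (H × A) →₀ ℤ, f = sm g b - b := by
  have h1 : ∑ i ∈ range q, sm (g ^ i)⁻¹ f = 0 := by
    rcases q with _ | q
    · simp
    · rw [← sum_range_reflect]
      have h2 : ∀ i ∈ range (q + 1), sm (g ^ (q + 1 - 1 - i))⁻¹ f = sm (g ^ q)⁻¹ (sm (g ^ i) f) := by
        intro i hi
        rw [← sm_mul]
        congr 1
        have h3 : i ≤ q := Nat.lt_succ_iff.1 (mem_range.1 hi)
        have h4 : g ^ q = g ^ i * g ^ (q - i) := by
          rw [← pow_add, Nat.add_sub_cancel' h3]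
        have h5 : q + 1 - 1 - i = q - i := rfl
        rw [h5, h4, mul_inv_rev, inv_mul_cancel_right]
      rw [sum_congr rfl h2, ← map_sum, h, map_zero]
  choose b hb using fun i => tele g i (sel T (sm (g ^ i)⁻¹ f))
  refine ⟨∑ i ∈ range q, b i, ?_⟩
  rw [map_sum, ← sum_sub_distrib]
  have h6 : ∑ i ∈ range q, sel T (sm (g ^ i)⁻¹ f) = 0 := by
    rw [← map_sum, h1, map_zero]
  calc f = ∑ i ∈ range q, sm (g ^ i) (sel T (sm (g ^ i)⁻¹ f)) := (decomp hT f).symm
    _ = ∑ i ∈ range q, sm (g ^ i) (sel T (sm (g ^ i)⁻¹ f)) -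
        ∑ i ∈ range q, sel T (sm (g ^ i)⁻¹ f) := by rw [h6, sub_zero]
    _ = ∑ i ∈ range q, (sm g (b i) - b i) := by
        rw [← sum_sub_distrib]
        exact sum_congr rfl fun i _ => hb i

/-- augmentation -/
noncomputable def ag : ((H × A) →₀ ℤ) →+ ℤ := Finsupp.liftAddHom (fun _ => AddMonoidHom.id ℤ)

theorem ag_single (x : H × A) (c : ℤ) : ag (Finsupp.single x c) = c := by
  simp [ag]

theorem ag_sm (g : H) (f : (H × A) →₀ ℤ) : ag (sm g f) = ag f := by
  induction f using Finsupp.induction_linear with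
  | zero => simp
  | add f g hf hg => rw [map_add, map_add, map_add, hf, hg]
  | single x c =>
    obtain ⟨x, a⟩ := x
    rw [sm_single, ag_single, ag_single]

/-- translation as an automorphism -/
noncomputable def smE (g : H) : ((H × A) →₀ ℤ) ≃+ ((H × A) →₀ ℤ) where
  toFun := sm g
  invFun := sm g⁻¹
  left_inv f := by rw [← sm_mul, inv_mul_cancel, sm_one]
  right_inv f := by rw [← sm_mul, mul_inv_cancel, sm_one]
  map_add' := map_add _

/-- the action on the multiplicative version -/
noncomputable def phi : H →* MulAut (Multiplicative ((H × A) →₀ ℤ)) where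
  toFun g := AddEquiv.toMultiplicative (smE g)
  map_one' := by
    ext1 x
    exact congrArg Multiplicative.ofAdd (sm_one (Multiplicative.toAdd x))
  map_mul' g h := by
    ext1 x
    exact congrArg Multiplicative.ofAdd (sm_mul g h (Multiplicative.toAdd x))

end Act

section Fox

variable {H : Type u} [Group H] {L : Type v} (pr : FreeGroup L →* H)

/-- the Magnus-Fox homomorphism -/
noncomputable def foxH : FreeGroup L →* SemidirectProduct (Multiplicative ((H × L) →₀ ℤ)) H phi :=
  FreeGroup.lift (fun l => ⟨Multiplicative.ofAdd (Finsupp.single (1, l) 1), pr (FreeGroup.of l)⟩)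

theorem foxH_right (w : FreeGroup L) : (foxH pr w).right = pr w := by
  have h : (SemidirectProduct.rightHom.comp (foxH pr)) = pr := by
    ext l
    simp [foxH]
  exact DFunLike.congr_fun h w

/-- Fox derivative -/
noncomputable def D (w : FreeGroup L) : (H × L) →₀ ℤ := Multiplicative.toAdd (foxH pr w).left

theorem D_of (l : L) : D pr (FreeGroup.of l) = Finsupp.single (1, l) 1 := by
  simp [D, foxH]

theorem D_one : D pr 1 = 0 := by
  simp [D]

theorem D_mul (a b : FreeGroup L) : D pr (a * b) = D pr a + sm (pr a) (D pr b) := by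
  have h : (foxH pr (a * b)).left = (foxH pr a).left * phi (foxH pr a).right (foxH pr b).left := by
    rw [map_mul, SemidirectProduct.mul_left]
  have h2 := congrArg Multiplicative.toAdd h
  rw [foxH_right] at h2
  exact h2

theorem D_inv (a : FreeGroup L) : D pr a⁻¹ = - sm (pr a)⁻¹ (D pr a) := by
  have h := D_mul pr a⁻¹ a
  rw [inv_mul_cancel, D_one, map_inv] at h
  exact eq_neg_of_add_eq_zero_left h.symm

/-- `f ↦ ∑ f_l (l - 1)` -/
noncomputable def P1 : ((H × L) →₀ ℤ) →+ ((H × Unit) →₀ ℤ) :=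
  Finsupp.liftAddHom (fun x => zmultiplesHom _
    (Finsupp.single (x.1 * pr (FreeGroup.of x.2), ()) 1 - Finsupp.single (x.1, ()) 1))

theorem P1_single (h : H) (l : L) (c : ℤ) : P1 pr (Finsupp.single (h, l) c) =
    c • (Finsupp.single (h * pr (FreeGroup.of l), ()) 1 - Finsupp.single (h, ()) 1) := by
  simp [P1]

theorem P1_sm (g : H) (f : (H × L) →₀ ℤ) : P1 pr (sm g f) = sm g (P1 pr f) := by
  induction f using Finsupp.induction_linear with
  | zero => simp
  | add f g hf hg => simp only [map_add, hf, hg]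
  | single x c =>
    obtain ⟨x, a⟩ := x
    rw [sm_single, P1_single, P1_single, map_zsmul, map_sub, sm_single, sm_single, mul_assoc]

theorem P1_D (w : FreeGroup L) :
    P1 pr (D pr w) = Finsupp.single (pr w, ()) 1 - Finsupp.single (1, ()) 1 := by
  induction w using FreeGroup.induction_on with
  | C1 => rw [D_one, map_zero, map_one, sub_self]
  | of l => rw [D_of, P1_single, one_smul, one_mul]
  | inv_of l h =>
    rw [D_inv, map_neg, P1_sm, h, map_sub, sm_single, sm_single, map_inv, inv_mul_cancel, mul_one,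
      neg_sub]
  | mul a b ha hb =>
    rw [D_mul, map_add, P1_sm, ha, hb, map_sub, sm_single, sm_single, map_mul, mul_one]
    abel

theorem ag_P1 (f : (H × L) →₀ ℤ) : ag (P1 pr f) = 0 := by
  induction f using Finsupp.induction_linear with
  | zero => simp
  | add f g hf hg => rw [map_add, map_add, hf, hg, add_zero]
  | single x c =>
    obtain ⟨x, a⟩ := x
    rw [P1_single, map_zsmul, map_sub, ag_single, ag_single, sub_self, smul_zero]

theorem D_pow (w : FreeGroup L) (m : ℕ) : D pr (w ^ m) = ∑ i ∈ range m, sm (pr w ^ i) (D pr w) := by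
  induction m with
  | zero => rw [pow_zero, D_one, range_zero, sum_empty]
  | succ m ih => rw [pow_succ, D_mul, ih, sum_range_succ, map_pow]

end Fox

section Main

variable {S : Sys} (σ : Equiv.Perm (S.C))

theorem mt_mt (q : Port S) : mt σ (mt σ q) = q := by
  obtain ⟨c, b⟩ := q
  cases b <;> simp [mt]

theorem val_winv {A : Type} (l : List (A × Bool)) : val (winv l) = (val l)⁻¹ := by
  rw [val, val, FreeGroup.inv_mk]
  rfl

theorem val_relw (q : Port S) :
    val (relw σ q) = val (half q) * (val (half (mt σ q)))⁻¹ := by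
  rw [← val_winv, relw]
  simp only [val, FreeGroup.mul_mk]

theorem val_relw_mt (q : Port S) : val (relw σ (mt σ q)) = (val (relw σ q))⁻¹ := by
  rw [val_relw, val_relw, mt_mt, mul_inv_rev, inv_inv]

theorem pch_mt (g : Gp σ) (q : Port S) : pch σ g (mt σ q) = - pch σ g q := by
  obtain ⟨c, b⟩ := q
  cases b <;> simp [mt, pch]

theorem sm_pch (h g : Gp σ) (q : Port S) : sm h (pch σ g q) = pch σ (h * g) q := by
  unfold pch
  split_ifs
  · rw [sm_single]
  · rw [sm_single]

/-- the projection to the group -/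
noncomputable abbrev prj : FreeGroup (Let S) →* Gp σ := PresentedGroup.mk (rels σ)

theorem prj_rel (q : Port S) : prj σ (val (relw σ q)) = 1 :=
  PresentedGroup.one_of_mem ⟨q, rfl⟩

theorem Expr.mul' {k k' : ℕ} {a b : FreeGroup (Let S)} {z z' : Chn σ} (h : Expr σ k a z)
    (h' : Expr σ k' b z') : Expr σ (k + k') (a * b) (z + z') := by
  induction h with
  | nil =>
    rw [zero_add, one_mul, zero_add]
    exact h'
  | cons k u z v q _ ih =>
    have h1 := Expr.cons (k + k') (u * b) (z + z') v q ih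
    have h2 : k + 1 + k' = k + k' + 1 := by omega
    rw [h2, mul_assoc _ u b, add_assoc (pch _ _ _)]
    exact h1

theorem Expr.conj' {k : ℕ} {a : FreeGroup (Let S)} {z : Chn σ} (h : Expr σ k a z)
    (w : FreeGroup (Let S)) : Expr σ k (w * a * w⁻¹) (sm (prj σ w) z) := by
  induction h with
  | nil =>
    rw [mul_one, mul_inv_cancel, map_zero]
    exact Expr.nil
  | cons k u z v q _ ih =>
    have h1 := Expr.cons k _ _ (w * v) q ih
    have h2 : w * (v * val (relw σ q) * v⁻¹ * u) * w⁻¹ =
        (w * v) * val (relw σ q) * (w * v)⁻¹ * (w * u * w⁻¹) := by group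
    rw [h2, map_add, sm_pch, ← map_mul]
    exact h1

theorem Expr.inv' {k : ℕ} {a : FreeGroup (Let S)} {z : Chn σ} (h : Expr σ k a z) :
    Expr σ k a⁻¹ (-z) := by
  induction h with
  | nil =>
    rw [inv_one, neg_zero]
    exact Expr.nil
  | cons k u z v q _ ih =>
    have h1 := Expr.cons 0 1 0 v (mt σ q) (Expr.nil (σ := σ))
    have h2 := Expr.mul' σ ih h1
    rw [val_relw_mt, pch_mt, zero_add, add_zero, mul_one] at h2
    have h3 : (v * val (relw σ q) * v⁻¹ * u)⁻¹ = u⁻¹ * (v * (val (relw σ q))⁻¹ * v⁻¹) := by group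
    rw [h3, neg_add, add_comm (-_) (-z)]
    exact h2

/-- elements with an expression form the normal closure of the relators -/
def exSub : Subgroup (FreeGroup (Let S)) where
  carrier := {w | ∃ k z, Expr σ k w z}
  mul_mem' := by
    rintro a b ⟨k, z, h⟩ ⟨k', z', h'⟩
    exact ⟨_, _, Expr.mul' σ h h'⟩
  one_mem' := ⟨0, 0, Expr.nil⟩
  inv_mem' := by
    rintro a ⟨k, z, h⟩
    exact ⟨_, _, Expr.inv' σ h⟩

theorem exists_expr {w : FreeGroup (Let S)} (h : prj σ w = 1) : ∃ k z, Expr σ k w z := by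
  have h1 : w ∈ Subgroup.normalClosure (rels σ) := (QuotientGroup.eq_one_iff w).1 h
  have hn : (exSub σ).Normal := ⟨by
    rintro a ⟨k, z, h⟩ g
    exact ⟨_, _, Expr.conj' σ h g⟩⟩
  have h2 : rels σ ⊆ (exSub σ : Set (FreeGroup (Let S))) := by
    rintro _ ⟨q, rfl⟩
    have h3 := Expr.cons 0 1 0 1 q (Expr.nil (σ := σ))
    rw [one_mul, inv_one, mul_one, mul_one] at h3
    exact ⟨_, _, h3⟩
  exact Subgroup.normalClosure_le_normal h2 h1

/-- boundary of a chain -/
noncomputable def bd : Chn σ →+ ((Gp σ × Let S) →₀ ℤ) :=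
  Finsupp.liftAddHom (fun x => zmultiplesHom _ (sm x.1 (D (prj σ) (val (relw σ (x.2, true))))))

theorem bd_single (g : Gp σ) (c : S.C) (m : ℤ) :
    bd σ (Finsupp.single (g, c) m) = m • sm g (D (prj σ) (val (relw σ (c, true)))) := by
  simp [bd]

theorem bd_sm (g : Gp σ) (f : Chn σ) : bd σ (sm g f) = sm g (bd σ f) := by
  induction f using Finsupp.induction_linear with
  | zero => simp
  | add f g hf hg => simp only [map_add, hf, hg]
  | single x c =>
    obtain ⟨x, a⟩ := x
    rw [sm_single, bd_single, bd_single, map_zsmul, sm_mul]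

theorem bd_pch (g : Gp σ) (q : Port S) :
    bd σ (pch σ g q) = sm g (D (prj σ) (val (relw σ q))) := by
  obtain ⟨c, b⟩ := q
  cases b
  · have h1 : pch σ g (c, false) = - pch σ g (σ.symm c, true) := by
      have h2 := pch_mt σ g (σ.symm c, true)
      have h3 : mt σ (σ.symm c, true) = (c, false) := by simp [mt]
      rw [h3] at h2
      exact h2
    have h4 : val (relw σ (c, false)) = (val (relw σ (σ.symm c, true)))⁻¹ := by
      have h2 := val_relw_mt σ (σ.symm c, true)
      have h3 : mt σ (σ.symm c, true) = (c, false) := by simp [mt]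
      rw [h3] at h2
      exact h2
    rw [h1, h4, D_inv, prj_rel, inv_one, sm_one, map_neg, map_neg]
    congr 1
    have h5 : pch σ g (σ.symm c, true) = Finsupp.single (g, σ.symm c) 1 := by simp [pch]
    rw [h5, bd_single, one_smul]
  · have h5 : pch σ g (c, true) = Finsupp.single (g, c) 1 := by simp [pch]
    rw [h5, bd_single, one_smul]

theorem D_expr {k : ℕ} {a : FreeGroup (Let S)} {z : Chn σ} (h : Expr σ k a z) :
    D (prj σ) a = bd σ z := by
  induction h with
  | nil => rw [D_one, map_zero]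
  | cons k u z v q _ ih =>
    have e1 : prj σ (v * val (relw σ q)) = prj σ v := by rw [map_mul, prj_rel, mul_one]
    have e2 : prj σ (v * val (relw σ q) * v⁻¹) = 1 := by
      rw [map_mul, e1, map_inv, mul_inv_cancel]
    rw [map_add, bd_pch, D_mul, D_mul, D_mul, D_inv, ih, e1, e2, sm_one, map_neg, ← sm_mul,
      mul_inv_cancel, sm_one]
    abel

theorem P1_bd (z : Chn σ) : P1 (prj σ) (bd σ z) = 0 := by
  induction z using Finsupp.induction_linear with
  | zero => simp
  | add f g hf hg => rw [map_add, map_add, hf, hg, add_zero]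
  | single x c =>
    obtain ⟨x, a⟩ := x
    rw [bd_single, map_zsmul, P1_sm, P1_D, prj_rel, sub_self, map_zero, smul_zero]

theorem no_prime_torsion (has : ∀ k z, Expr σ k 1 z → z = 0) (g : Gp σ) (q : ℕ)
    (hq : q.Prime) (ho : orderOf g = q) : False := by
  obtain ⟨w, rfl⟩ := QuotientGroup.mk_surjective g
  change orderOf (prj σ w) = q at ho
  obtain ⟨T, hT⟩ := exists_rep (prj σ w) (by rw [ho]; exact hq.pos)
  rw [ho] at hT
  have h1 : prj σ (w ^ q) = 1 := by
    rw [map_pow, ← ho]
    exact pow_orderOf_eq_one _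
  obtain ⟨k, z, hz⟩ := exists_expr σ h1
  have h2 := Expr.conj' σ hz w
  have h3 : w * w ^ q * w⁻¹ = w ^ q := by
    rw [← pow_succ', pow_succ, mul_inv_cancel_right]
  rw [h3] at h2
  have h4 := Expr.mul' σ hz (Expr.inv' σ h2)
  rw [mul_inv_cancel] at h4
  have h5 := has _ _ h4
  have h6 : sm (prj σ w) z = z := by
    rw [← sub_eq_add_neg, sub_eq_zero] at h5
    exact h5.symm
  obtain ⟨z', hz'⟩ := inv_norm hT h6
  have h7 : ∑ i ∈ range q, sm (prj σ w ^ i) (bd σ z' - D (prj σ) w) = 0 := by
    simp only [map_sub, sum_sub_distrib]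
    rw [← D_pow, D_expr σ hz, hz', map_sum, sub_eq_zero]
    refine sum_congr rfl fun i _ => ?_
    rw [bd_sm]
  obtain ⟨b, hb⟩ := norm_zero hT h7
  have h8 := congrArg (P1 (prj σ)) hb
  rw [map_sub, map_sub, P1_bd, P1_D, P1_sm] at h8
  have h9 : sm (prj σ w) (P1 (prj σ) b + Finsupp.single (1, ()) 1) =
      P1 (prj σ) b + Finsupp.single (1, ()) 1 := by
    rw [map_add, sm_single, mul_one]
    have h10 : sm (prj σ w) (P1 (prj σ) b) =
        P1 (prj σ) b + (0 - (Finsupp.single (prj σ w, ()) 1 - Finsupp.single (1, ()) 1)) := by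
      rw [h8]
      abel
    rw [h10]
    abel
  obtain ⟨a, ha⟩ := inv_norm hT h9
  have h11 := congrArg ag ha
  rw [map_add, ag_P1, ag_single, map_sum, zero_add] at h11
  simp only [ag_sm, sum_const, card_range, nsmul_eq_mul] at h11
  have h12 : (q : ℤ) ∣ 1 := ⟨_, h11⟩
  have h13 : q ∣ 1 := by exact_mod_cast h12
  exact hq.one_lt.ne' (Nat.dvd_one.1 h13)

theorem torsion_free (has : ∀ k z, Expr σ k 1 z → z = 0) :
    ∀ g : Gp σ, ∀ m : ℕ, 0 < m → g ^ m = 1 → g = 1 := by
  intro g m hm hg
  by_contra hne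
  have hfin : IsOfFinOrder g := isOfFinOrder_iff_pow_eq_one.2 ⟨m, hm, hg⟩
  have h1 : orderOf g ≠ 1 := fun h => hne (orderOf_eq_one_iff.1 h)
  obtain ⟨q, hq, hdvd⟩ := Nat.exists_prime_and_dvd h1
  obtain ⟨r, hr⟩ := hdvd
  have h2 : 0 < orderOf g := orderOf_pos_iff.2 hfin
  have hr0 : 0 < r := by
    rcases Nat.eq_zero_or_pos r with h | h
    · rw [h, mul_zero] at hr
      omega
    · exact h
  have h3 : orderOf (g ^ r) = q := by
    rw [orderOf_pow_of_dvd hr0.ne' ⟨q, by rw [hr, mul_comm]⟩, hr]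
    exact Nat.mul_div_cancel q hr0
  exact no_prime_torsion σ has (g ^ r) q hq h3

end Main

end TF

/-- PART G, torsion -/
theorem stmtTor : StmtTor := fun _ σ has => TF.torsion_free σ has

end Vale.Agent.P201.S
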