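import Mathlib

/-!
P201 (and P194, P186): the general machine for an abstract system of ports (captain helper201).
Same as `Z/Defs.lean`, `Z/PC.lean` with `(p : Pat) (n : Nat)` replaced by a system `S : Sys`:
row/copy label `rc`, block `blk`, height `ht` are functions of the port.
-/

namespace Vale.Agent.P201.S

open Finset

/-- A system of ports: `C x Bool` are the ports, the ports `(c, true)` and `(σ c, false)` get matched. -/
structure Sys where
  C : Type
  R : Type
  B : Type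
  [fC : Fintype C]
  [fR : Fintype R]
  [fB : Fintype B]
  [dC : DecidableEq C]
  [dR : DecidableEq R]
  [dB : DecidableEq B]
  rc : C × Bool → R
  blk : C × Bool → B
  ht : C × Bool → ℤ
  inj : ∀ q q', rc q = rc q' → blk q = blk q' → ht q = ht q' → q = q'
  cp : ∀ q q', rc q = rc q' → q.2 = q'.2

attribute [instance] Sys.fC Sys.fR Sys.fB Sys.dC Sys.dR Sys.dB

/-- a port -/
abbrev Port (S : Sys) : Type := S.C × Bool

variable {S : Sys}

/-- the matching involution on ports: `(c, true)` with `(σ c, false)` -/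
def mt (σ : Equiv.Perm S.C) (q : Port S) : Port S :=
  if q.2 then (σ q.1, false) else (σ.symm q.1, true)

/-- reduced walk of the matching graph, given by its leaving ports -/
def IsWalk (σ : Equiv.Perm S.C) (l : List (Port S)) : Prop :=
  l.IsChain (fun a b => S.blk (mt σ a) = S.blk b ∧ b ≠ mt σ a)

/-- closed cyclically reduced walk -/
def IsCWalk (σ : Equiv.Perm S.C) (l : List (Port S)) : Prop :=
  IsWalk σ l ∧ ∀ a ∈ l.getLast?, ∀ b ∈ l.head?, S.blk (mt σ a) = S.blk b ∧ b ≠ mt σ a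

/-- girth at least `g` -/
def Girth (σ : Equiv.Perm S.C) (g : ℕ) : Prop :=
  ∀ l : List (Port S), l ≠ [] → IsCWalk σ l → g ≤ l.length

/-! ## Part B -/

/-- graph of a permutation as a finset of pairs -/
def gr (σ : Equiv.Perm S.C) : Finset (S.C × S.C) := univ.image (fun c => (c, σ c))

/-- PART B. `D` bounds the number of ports of a block. -/
def StmtB : Prop :=
  ∀ (S : Sys) (g D s : ℕ), (∀ b : S.B, (univ.filter (fun q : Port S => S.blk q = b)).card ≤ D) →
    (2 * D + 2) ^ (g + 3) + s < Fintype.card S.C →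
    ∀ Q : Finset (S.C × S.C) → ℝ, (∀ E, 0 ≤ Q E) → (∑ E, Q E ≤ 1) →
      (∀ E, Q E ≠ 0 → E.card ≤ s) →
      ∃ σ : Equiv.Perm S.C, Girth σ g ∧
        ∀ E ⊆ gr σ, Q E * ((Fintype.card S.C : ℝ) - (2 * D + 2) ^ (g + 3) - s) ^ E.card ≤ 1

/-! ## Partial injections and cycles -/

/-- `k`-th iterate of a partial injection -/
def pit {T : Type} (f : T ≃. T) : ℕ → T → Option T
  | 0, s => some s
  | k + 1, s => (f s).bind (pit f k)

/-- `s` lies on a cycle of `f` -/
def Per {T : Type} (f : T ≃. T) (s : T) : Prop := ∃ k, 0 < k ∧ pit f k s = some s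

open Classical in
/-- forward orbit -/
noncomputable def orb {T : Type} [Fintype T] (f : T ≃. T) (s : T) : Finset T :=
  univ.filter (fun t => ∃ k, pit f k s = some t)

open Classical in
/-- number of cycles -/
noncomputable def cyc {T : Type} [Fintype T] (f : T ≃. T) : ℕ :=
  ((univ.filter (Per f)).image (orb f)).card

open Classical in
noncomputable def domc {T : Type} [Fintype T] (f : T ≃. T) : ℕ :=
  (univ.filter (fun s => (f s).isSome)).card

/-! ## Gluing data: squares with partial injections `X`, `Y`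

`ε s` is the port of the start corner of the (oriented) square `s`, `mt σ (ε s)` the port of its end
corner.  `Y s = some s'`: the end y-side of `s` is glued to the start y-side of `s'`.
`X s = some s'`: the start x-side of `s` is glued to the end x-side of `s'`. -/

structure Glue (σ : Equiv.Perm S.C) where
  Q : Type
  [fQ : Fintype Q]
  [dQ : DecidableEq Q]
  ε : Q → Port S
  X : Q ≃. Q
  Y : Q ≃. Q

attribute [instance] Glue.fQ Glue.dQ

namespace Glue

variable {σ : Equiv.Perm S.C} (G : Glue σ)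

/-- `Y ∘ X` (first `X`, then `Y`) -/
def XY : G.Q ≃. G.Q := G.X.trans G.Y

/-- sides are glued to sides with the same letter and there is no mirror pair -/
structure Red : Prop where
  y : ∀ s s', G.Y s = some s' → S.blk (mt σ (G.ε s)) = S.blk (G.ε s') ∧ G.ε s' ≠ mt σ (G.ε s)
  x : ∀ s s', G.X s = some s' → S.rc (G.ε s) = S.rc (mt σ (G.ε s')) ∧ G.ε s ≠ mt σ (G.ε s')

/-- the label increment of one step `s ↦ X s = u ↦ Y u = v`: `ht (mt (ε u)) - ht (ε v)` -/
noncomputable def inc (s : G.Q) : ℤ :=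
  match G.X s with
  | none => 0
  | some u => match G.Y u with
    | none => 0
    | some v => S.ht (mt σ (G.ε u)) - S.ht (G.ε v)

/-- all cycles of `XY` except at most one have label sum zero -/
def Lab : Prop := ∃ E : Finset G.Q, (∀ s s', s ∈ E → s' ∈ E → orb G.XY s = orb G.XY s') ∧
  ∀ s, Per G.XY s → s ∉ E → ∑ t ∈ orb G.XY s, G.inc t = 0

/-- Euler inequality -/
def Eul : Prop :=
  domc G.X + domc G.Y ≤ Fintype.card G.Q + cyc G.X + cyc G.Y + cyc G.XY

end Glue

/-- the local isoperimetric inequality up to area `M`, with weight `Y` of a y-letter -/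
def LocIso (σ : Equiv.Perm S.C) (M Y : ℕ) (e1 : ℝ) : Prop :=
  ∀ G : Glue σ, G.Red → G.Lab → G.Eul → Fintype.card G.Q ≤ M →
    e1 * (Fintype.card G.Q : ℝ) ≤
      ((Fintype.card G.Q : ℝ) - domc G.X) + Y * ((Fintype.card G.Q : ℝ) - domc G.Y)

/-- units with label `(r, r', d)`: ordered pairs of distinct ports of one block -/
def nu (S : Sys) (r r' : S.R) (d : ℤ) : ℕ :=
  (univ.filter (fun x : Port S × Port S => S.blk x.1 = S.blk x.2 ∧ x.1 ≠ x.2 ∧ S.rc x.1 = r ∧
    S.rc x.2 = r' ∧ S.ht x.2 - S.ht x.1 = d)).card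

/-- number of pairs of units with the same label: `∑_l nu(l)^2` -/
def nu2 (S : Sys) : ℕ :=
  (univ.filter (fun x : (Port S × Port S) × (Port S × Port S) =>
    S.blk x.1.1 = S.blk x.1.2 ∧ x.1.1 ≠ x.1.2 ∧ S.blk x.2.1 = S.blk x.2.2 ∧ x.2.1 ≠ x.2.2 ∧
    S.rc x.1.1 = S.rc x.2.1 ∧ S.rc x.1.2 = S.rc x.2.2 ∧
    S.ht x.1.2 - S.ht x.1.1 = S.ht x.2.2 - S.ht x.2.1)).card

/-- quantitative hypotheses on a system: at most `D` ports in a block, at most `D * #C` blocks, every
occurring unit label occurs at least `#C / D` times, and `2 ∑ nu^2 ≤ (#C)^2`. -/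
structure Sys.Ok (S : Sys) (D : ℕ) : Prop where
  ports : ∀ b : S.B, (univ.filter (fun q : Port S => S.blk q = b)).card ≤ D
  blocks : Fintype.card S.B ≤ D * Fintype.card S.C
  labels : ∀ q q' : Port S, S.blk q = S.blk q' → q ≠ q' →
    Fintype.card S.C ≤ D * nu S (S.rc q) (S.rc q') (S.ht q' - S.ht q)
  w : 2 * nu2 S ≤ (Fintype.card S.C) ^ 2

/-- PARTS B + C + LA: existence of good matchings for large systems. -/
def StmtLoc : Prop :=
  ∀ D : ℕ, ∃ c e1 : ℝ, 0 < c ∧ 0 < e1 ∧ ∀ K Y0 : ℕ, ∃ N0 : ℕ, ∀ S : Sys, S.Ok D →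
    N0 ≤ Fintype.card S.C → ∃ Y : ℕ, Y0 ≤ Y ∧ ∃ σ : Equiv.Perm S.C, ∃ g : ℕ, c * Y ≤ g ∧
      Girth σ g ∧ LocIso σ (K * Y) Y e1

/-! ## The group -/

inductive Let (S : Sys)
  | t : Let S
  | x : S.R → Let S
  | y : S.B → Let S

/-- the word `t^h` as a list of signed letters -/
def tw (S : Sys) (h : ℤ) : List (Let S × Bool) :=
  List.replicate h.natAbs (Let.t, decide (0 ≤ h))

/-- inverse of a list word -/
def winv {A : Type} (l : List (A × Bool)) : List (A × Bool) := (l.map (fun a => (a.1, !a.2))).reverse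

/-- half relator of a port: `x_{row,copy} t^{ht} y_{blk}` -/
def half (q : Port S) : List (Let S × Bool) :=
  (Let.x (S.rc q), true) :: (tw S (S.ht q) ++ [(Let.y (S.blk q), true)])

/-- the relator of a port (oriented square, read from the o-vertex):
`half q * (half (mt σ q))⁻¹`.  The relator of `mt σ q` is the inverse of that of `q`. -/
def relw (σ : Equiv.Perm S.C) (q : Port S) : List (Let S × Bool) :=
  half q ++ winv (half (mt σ q))

/-- value of a list word in the free group -/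
def val {A : Type} (l : List (A × Bool)) : FreeGroup A := FreeGroup.mk l

/-- the set of relators -/
def rels (σ : Equiv.Perm S.C) : Set (FreeGroup (Let S)) := Set.range (fun q => val (relw σ q))

abbrev Gp (σ : Equiv.Perm S.C) : Type := PresentedGroup (rels σ)

/-- weight of a letter: `t` 0, `x` 1, `y` Y -/
def wtl (Y : ℕ) : Let S → ℕ
  | .t => 0
  | .x _ => 1
  | .y _ => Y

def wtw (Y : ℕ) (l : List (Let S × Bool)) : ℕ := (l.map (fun a => wtl Y a.1)).sum

/-- chains: `ℤ[Gp]^{cells}`; the square of a port `(c,true)` is `+[g,c]`, of `(σ c,false)` is `-[g,c]`. -/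
abbrev Chn (σ : Equiv.Perm S.C) : Type := (Gp σ × S.C) →₀ ℤ

noncomputable def pch (σ : Equiv.Perm S.C) (g : Gp σ) (q : Port S) : Chn σ :=
  if q.2 then Finsupp.single (g, q.1) 1 else Finsupp.single (g, σ.symm q.1) (-1)

/-- `Expr σ k u z`: the element `u` of the free group is a product of `k` conjugates of relators with
chain `z`. -/
inductive Expr (σ : Equiv.Perm S.C) : ℕ → FreeGroup (Let S) → Chn σ → Prop
  | nil : Expr σ 0 1 0
  | cons (k : ℕ) (u : FreeGroup (Let S)) (z : Chn σ) (v : FreeGroup (Let S)) (q : Port S) :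
      Expr σ k u z →
      Expr σ (k + 1) (v * val (relw σ q) * v⁻¹ * u) (pch σ (PresentedGroup.mk (rels σ) v) q + z)

/-- PARTS D + F: asphericity, injectivity for short words, infinite order of `t`, and the linear
isoperimetric inequality.  `L` bounds the length of the relators. -/
def StmtGlob : Prop :=
  ∀ (c e1 : ℝ) (L : ℕ), 0 < c → 0 < e1 → ∃ K Y0 : ℕ, ∀ S : Sys, (∀ q : Port S, (S.ht q).natAbs ≤ L) →
    ∀ Y : ℕ, Y0 ≤ Y → ∀ (σ : Equiv.Perm S.C) (g : ℕ), c * Y ≤ g → Girth σ g →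
      LocIso σ (K * Y) Y e1 →
      (∀ k z, Expr σ k 1 z → z = 0) ∧
      (∀ l : List (Let S × Bool), (∀ a ∈ l, ∀ j, a.1 ≠ Let.y j) → wtw Y l ≤ 2 →
        PresentedGroup.mk (rels σ) (val l) = 1 → val l = 1) ∧
      (∀ l : List (Let S × Bool), PresentedGroup.mk (rels σ) (val l) = 1 →
        ∃ k z, Expr σ k (val l) z ∧ e1 / 2 * k ≤ wtw Y l)

/-- PART G, torsion -/
def StmtTor : Prop :=
  ∀ (S : Sys) (σ : Equiv.Perm S.C), (∀ k z, Expr σ k 1 z → z = 0) →
    ∀ g : Gp σ, ∀ m : ℕ, 0 < m → g ^ m = 1 → g = 1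

/-- The machine: for every `D`, `L` and every sufficiently large `Ok` system there is a matching. -/
theorem machine (hL : StmtLoc) (hG : StmtGlob) (hT : StmtTor) (D L : ℕ) : ∃ N0 : ℕ, ∀ S : Sys, S.Ok D →
    (∀ q : Port S, (S.ht q).natAbs ≤ L) → N0 ≤ Fintype.card S.C →
    ∃ (e1 : ℝ) (_ : 0 < e1) (Y : ℕ) (σ : Equiv.Perm S.C),
      (∀ g : Gp σ, ∀ m : ℕ, 0 < m → g ^ m = 1 → g = 1) ∧
      (∀ l : List (Let S × Bool), (∀ a ∈ l, ∀ j, a.1 ≠ Let.y j) → wtw Y l ≤ 2 →
        PresentedGroup.mk (rels σ) (val l) = 1 → val l = 1) ∧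
      (∀ l : List (Let S × Bool), PresentedGroup.mk (rels σ) (val l) = 1 →
        ∃ k z, Expr σ k (val l) z ∧ e1 / 2 * k ≤ wtw Y l) := by
  obtain ⟨c, e1, hc, he1, h⟩ := hL D
  obtain ⟨K, Y0, h2⟩ := hG c e1 L hc he1
  obtain ⟨N0, h⟩ := h K Y0
  refine ⟨N0, fun S hS hH hN => ?_⟩
  obtain ⟨Y, hY, σ, g, hg, hgi, hloc⟩ := h S hS hN
  obtain ⟨h3, h4, h5⟩ := h2 S hH Y hY σ g hg hgi hloc
  exact ⟨e1, he1, Y, σ, hT S σ h3, h4, h5⟩

end Vale.Agent.P201.S
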