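import Vale.Agent.P201.S.D.VKMain
import Vale.Agent.P201.S.D.Bridge
import Vale.Agent.P201.S.F.Gd
import Vale.Agent.P201.S.F.LocK
import Vale.Agent.P201.S.F.Merge
import Vale.Agent.P201.S.F.Iso
import Vale.Agent.P201.S.F.Glob2
import Vale.Agent.P201.S.D.T1

/-! P201 (general system): parts D and F, final assembly -/

namespace Vale.Agent.P201.S

theorem stmtIso : StmtIso := stmtIso_of stmtMerge stmtLocK stmtT1

theorem stmtGlob : StmtGlob := stmtGlob_of stmtVK stmtGd stmtLocK stmtBridgeS stmtIso

end Vale.Agent.P201.S
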