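import Vale.Agent.P201.S.G1

/-! P201: the instance of the machine, final assembly. -/

namespace Vale.Agent.P201.S

open Finset

/-- the systems of a pattern satisfy the quantitative hypotheses -/
def StmtSysOk : Prop :=
  ∀ p : Z.Pat, p.Good → ∃ D L : ℕ, ∀ n : ℕ, 1 ≤ n → (sys p n).Ok D ∧
    (∀ q : Port (sys p n), ((sys p n).ht q).natAbs ≤ L) ∧
    Fintype.card (sys p n).C = n * p.Ttot

/-- P201: a torsion-free group whose group ring over `F_2` has zero divisors. -/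
theorem final201 (hOk : StmtSysOk) (hA : Z.StmtA) (hL : StmtLoc) (hG : StmtGlob) (hT : StmtTor) :
    ∃ (G : Type) (_ : Group G), (∀ g : G, ∀ m : ℕ, 0 < m → g ^ m = 1 → g = 1) ∧
      ∃ a b : MonoidAlgebra (ZMod 2) G, a ≠ 0 ∧ b ≠ 0 ∧ a * b = 0 := by
  obtain ⟨p, hp⟩ := hA
  obtain ⟨D, L, hDL⟩ := hOk p hp
  obtain ⟨N0, h⟩ := machine hL hG hT D L
  obtain ⟨h1, h2, h3⟩ := hDL (2 * N0 + 1) (by omega)
  have hpos := hp.pos
  have hN : N0 ≤ Fintype.card (sys p (2 * N0 + 1)).C := by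
    rw [h3]
    calc N0 ≤ (2 * N0 + 1) * 1 := by omega
      _ ≤ (2 * N0 + 1) * p.Ttot := Nat.mul_le_mul_left _ hpos
  obtain ⟨e1, -, Y, σ, ht, hinj, -⟩ := h (sys p (2 * N0 + 1)) h1 h2 hN
  exact ⟨Gp σ, inferInstance, ht, G1.zero_div σ hp ⟨N0, rfl⟩ Y hinj⟩

end Vale.Agent.P201.S
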