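import Vale.Agent.P201.Z.Defs
import Vale.Agent.P201.S.Defs

/-! P201: the instance of the machine for a good pattern (system). -/

namespace Vale.Agent.P201.S

open Finset

/-- the system of a pattern `p` with `n` copies of every block -/
noncomputable def sys (p : Z.Pat) (n : ℕ) : Sys where
  C := Z.Cel p n
  R := p.I × Bool
  B := Z.Blk p n
  rc := fun q => (Z.row q.1, q.2)
  blk := fun q => Z.blk q.1
  ht := fun q => Z.ht q.1
  inj := by
    rintro ⟨⟨⟨i, b⟩, h, hh⟩, c⟩ ⟨⟨⟨i', b'⟩, h', hh'⟩, c'⟩ h1 h2 h3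
    simp only [Z.row, Z.blk, Z.ht, Prod.mk.injEq] at h1 h2 h3
    obtain ⟨rfl, rfl⟩ := h1
    subst h2 h3
    rfl
  cp := by
    intro q q' h
    exact (Prod.mk.injEq _ _ _ _ ▸ h).2

end Vale.Agent.P201.S
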