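import Vale.Agent.P201.S.Inst201

/-!
P201: the system of ports of a pattern, and the quantitative hypotheses (helper694).
-/

namespace Vale.Agent.P201.S

open Finset

namespace Ok201

variable {p : Z.Pat} {n : ℕ}

theorem card_sys : Fintype.card (sys p n).C = n * p.Ttot := by
  have h1 : Fintype.card (sys p n).C = ∑ x : p.I × Z.Blk p n, (p.N x.1 x.2.1).card := by
    change Fintype.card (Σ x : p.I × Z.Blk p n, {h : ℤ // h ∈ p.N x.1 x.2.1}) = _
    rw [Fintype.card_sigma]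
    refine sum_congr rfl fun x _ => ?_
    exact Fintype.card_coe _
  rw [h1, Fintype.sum_prod_type]
  unfold Z.Pat.Ttot
  rw [sum_comm (s := (univ : Finset p.K)), mul_sum]
  refine sum_congr rfl fun i _ => ?_
  rw [Fintype.sum_prod_type, mul_sum]
  refine sum_congr rfl fun k _ => ?_
  change ∑ _x : Fin n, (p.N i k).card = _
  rw [sum_const, card_univ, Fintype.card_fin, smul_eq_mul]

theorem ports201 (b : (sys p n).B) :
    (univ.filter (fun q : Port (sys p n) => (sys p n).blk q = b)).card ≤ 2 * p.Ttot := by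
  classical
  have h1 : (univ.filter (fun q : Port (sys p n) => (sys p n).blk q = b)).card ≤
      (((univ : Finset p.I).sigma (fun i => p.N i b.1)) ×ˢ (univ : Finset Bool)).card := by
    refine card_le_card_of_injOn (fun q => ((⟨q.1.1.1, q.1.2.1⟩ : Σ _ : p.I, ℤ), q.2)) ?_ ?_
    · intro q hq
      have hq2 : q.1.1.2 = b := (mem_filter.1 hq).2
      have h3 := q.1.2.2
      rw [mem_coe, mem_product, mem_sigma]
      refine ⟨⟨mem_univ _, ?_⟩, mem_univ _⟩
      rw [← hq2]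
      exact h3
    · intro q hq q' hq' h
      have hb : q.1.1.2 = b := (mem_filter.1 hq).2
      have hb' : q'.1.1.2 = b := (mem_filter.1 hq').2
      simp only [Prod.mk.injEq, Sigma.mk.injEq, heq_eq_eq] at h
      refine (sys p n).inj q q' ?_ (hb.trans hb'.symm) h.1.2
      exact Prod.ext h.1.1 h.2
  refine h1.trans ?_
  rw [card_product, card_sigma, card_univ, Fintype.card_bool, mul_comm]
  refine Nat.mul_le_mul_left 2 ?_
  unfold Z.Pat.Ttot
  exact single_le_sum (f := fun k => ∑ i, (p.N i k).card) (fun _ _ => Nat.zero_le _) (mem_univ b.1)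

/-- the same port in another block of the same type -/
def sh (j : Fin n) (q : Z.Cel p n × Bool) : Z.Cel p n × Bool :=
  (⟨(q.1.1.1, (q.1.1.2.1, j)), q.1.2⟩, q.2)

theorem labels201 (q q' : Port (sys p n)) (hb : (sys p n).blk q = (sys p n).blk q')
    (hne : q ≠ q') :
    n ≤ nu (sys p n) ((sys p n).rc q) ((sys p n).rc q')
      ((sys p n).ht q' - (sys p n).ht q) := by
  classical
  unfold nu
  have h1 : (univ : Finset (Fin n)).card = n := by rw [card_univ, Fintype.card_fin]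
  refine le_trans (le_of_eq h1.symm) ?_
  refine card_le_card_of_injOn (fun j => ((sh j q, sh j q') : Port (sys p n) × Port (sys p n)))
    ?_ ?_
  · intro j _
    rw [mem_coe, mem_filter]
    refine ⟨mem_univ _, ?_, ?_, rfl, rfl, rfl⟩
    · change (q.1.1.2.1, j) = (q'.1.1.2.1, j)
      have : q.1.1.2 = q'.1.1.2 := hb
      rw [this]
    · intro h
      apply hne
      have h' : sh j q = sh j q' := h
      refine (sys p n).inj q q' ?_ hb ?_
      · change (sys p n).rc (sh j q) = (sys p n).rc (sh j q')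
        rw [h']
      · change (sys p n).ht (sh j q) = (sys p n).ht (sh j q')
        rw [h']
  · intro j _ j' _ h
    have h2 := congrArg (fun x : Port (sys p n) × Port (sys p n) => x.1.1.1.2.2) h
    exact h2

theorem memN {p : Z.Pat} {i i' : p.I} {k k' : p.K} {h : ℤ} (hm : h ∈ p.N i k) (hi : i = i')
    (hk : k = k') : h ∈ p.N i' k' := by
  subst hi hk
  exact hm

/-- the set counted by `W4` -/
noncomputable def WS (p : Z.Pat) : Finset (Σ _ : (p.K × p.K) × (p.I × p.I), (ℤ × ℤ) × (ℤ × ℤ)) :=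
  (univ : Finset ((p.K × p.K) × (p.I × p.I))).sigma (fun x =>
    ((p.N x.2.1 x.1.1 ×ˢ p.N x.2.2 x.1.1) ×ˢ (p.N x.2.1 x.1.2 ×ˢ p.N x.2.2 x.1.2)).filter
      (fun y => y.1.2 - y.1.1 = y.2.2 - y.2.1))

theorem card_WS (p : Z.Pat) : (WS p).card = p.W4 := by
  unfold WS Z.Pat.W4
  rw [card_sigma, Fintype.sum_prod_type, Fintype.sum_prod_type]
  refine sum_congr rfl fun k _ => sum_congr rfl fun k' _ => ?_
  rw [Fintype.sum_prod_type]

theorem nu2_201 : nu2 (sys p n) ≤ 4 * n ^ 2 * p.W4 := by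
  classical
  unfold nu2
  have h1 : ((univ : Finset ((Bool × Bool) × (Fin n × Fin n))) ×ˢ WS p).card = 4 * n ^ 2 * p.W4 := by
    rw [card_product, card_WS, card_univ, Fintype.card_prod, Fintype.card_prod, Fintype.card_prod,
      Fintype.card_bool, Fintype.card_fin]
    ring
  rw [← h1]
  refine card_le_card_of_injOn (fun x : (Port (sys p n) × Port (sys p n)) ×
      (Port (sys p n) × Port (sys p n)) =>
    (((x.1.1.2, x.1.2.2), (x.1.1.1.1.2.2, x.2.1.1.1.2.2)),
      (⟨((x.1.1.1.1.2.1, x.2.1.1.1.2.1), (x.1.1.1.1.1, x.1.2.1.1.1)),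
        ((x.1.1.1.2.1, x.1.2.1.2.1), (x.2.1.1.2.1, x.2.2.1.2.1))⟩ :
        Σ _ : (p.K × p.K) × (p.I × p.I), (ℤ × ℤ) × (ℤ × ℤ)))) ?_ ?_
  · rintro ⟨⟨q1, q2⟩, q3, q4⟩ hx
    obtain ⟨-, h1, -, h2, -, h3, h4, h5⟩ := mem_filter.1 hx
    change q1.1.1.2 = q2.1.1.2 at h1
    change q3.1.1.2 = q4.1.1.2 at h2
    change (q1.1.1.1, q1.2) = (q3.1.1.1, q3.2) at h3
    change (q2.1.1.1, q2.2) = (q4.1.1.1, q4.2) at h4
    simp only [Prod.mk.injEq] at h3 h4
    rw [mem_coe, mem_product]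
    refine ⟨mem_univ _, ?_⟩
    unfold WS
    rw [mem_sigma]
    refine ⟨mem_univ _, ?_⟩
    rw [mem_filter, mem_product, mem_product, mem_product]
    exact ⟨⟨⟨q1.1.2.2, memN q2.1.2.2 rfl (congrArg Prod.fst h1.symm)⟩,
      memN q3.1.2.2 h3.1.symm rfl, memN q4.1.2.2 h4.1.symm (congrArg Prod.fst h2.symm)⟩, h5⟩
  · rintro ⟨⟨q1, q2⟩, q3, q4⟩ hx ⟨⟨r1, r2⟩, r3, r4⟩ hy h
    obtain ⟨-, h1, -, h2, -, h3, h4, h5⟩ := mem_filter.1 hx
    obtain ⟨-, g1, -, g2, -, g3, g4, g5⟩ := mem_filter.1 hy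
    change q1.1.1.2 = q2.1.1.2 at h1
    change q3.1.1.2 = q4.1.1.2 at h2
    change (q1.1.1.1, q1.2) = (q3.1.1.1, q3.2) at h3
    change (q2.1.1.1, q2.2) = (q4.1.1.1, q4.2) at h4
    change r1.1.1.2 = r2.1.1.2 at g1
    change r3.1.1.2 = r4.1.1.2 at g2
    change (r1.1.1.1, r1.2) = (r3.1.1.1, r3.2) at g3
    change (r2.1.1.1, r2.2) = (r4.1.1.1, r4.2) at g4
    simp only [Prod.mk.injEq, Sigma.mk.injEq, heq_eq_eq] at h h3 h4 g3 g4
    obtain ⟨⟨⟨a1, a2⟩, a3, a4⟩, ⟨⟨b1, b2⟩, b3, b4⟩, ⟨c1, c2⟩, c3, c4⟩ := h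
    have e1 : q1.1.1.2 = r1.1.1.2 := Prod.ext b1 a3
    have e3 : q3.1.1.2 = r3.1.1.2 := Prod.ext b2 a4
    have k1 : q1 = r1 := (sys p n).inj q1 r1 (Prod.ext b3 a1) e1 c1
    have k2 : q2 = r2 := (sys p n).inj q2 r2 (Prod.ext b4 a2) (h1.symm.trans (e1.trans g1)) c2
    have k3 : q3 = r3 := (sys p n).inj q3 r3
      (Prod.ext (h3.1.symm.trans (b3.trans g3.1)) (h3.2.symm.trans (a1.trans g3.2))) e3 c3
    have k4 : q4 = r4 := (sys p n).inj q4 r4
      (Prod.ext (h4.1.symm.trans (b4.trans g4.1)) (h4.2.symm.trans (a2.trans g4.2)))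
      (h2.symm.trans (e3.trans g2)) c4
    rw [k1, k2, k3, k4]

theorem blocks201 (hp : p.Good) :
    Fintype.card (sys p n).B ≤ (2 * p.Ttot + Fintype.card p.K) * (n * p.Ttot) := by
  have h1 : Fintype.card (sys p n).B = Fintype.card p.K * n := by
    change Fintype.card (p.K × Fin n) = _
    rw [Fintype.card_prod, Fintype.card_fin]
  rw [h1]
  have h3 : n ≤ n * p.Ttot := Nat.le_mul_of_pos_right _ hp.pos
  exact Nat.mul_le_mul (Nat.le_add_left _ _) h3

theorem w201 (hp : p.Good) : 2 * nu2 (sys p n) ≤ (n * p.Ttot) ^ 2 := by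
  have h1 := nu2_201 (p := p) (n := n)
  have h2 := hp.w
  generalize nu2 (sys p n) = a at h1 ⊢
  calc 2 * a ≤ 2 * (4 * n ^ 2 * p.W4) := Nat.mul_le_mul_left _ h1
    _ = n ^ 2 * (8 * p.W4) := by ring
    _ ≤ n ^ 2 * p.Ttot ^ 2 := Nat.mul_le_mul_left _ h2
    _ = (n * p.Ttot) ^ 2 := by ring

/-- The system of a good pattern satisfies the hypotheses, with a constant which does not depend on
the number of blocks. -/
theorem ok201 (hp : p.Good) (n : ℕ) : (sys p n).Ok (2 * p.Ttot + Fintype.card p.K) where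
  ports b := (ports201 b).trans (Nat.le_add_right _ _)
  blocks := by
    rw [card_sys]
    exact blocks201 hp
  labels q q' hb hne := by
    rw [card_sys]
    have h1 := labels201 q q' hb hne
    generalize nu (sys p n) _ _ _ = a at h1 ⊢
    rw [mul_comm n]
    exact Nat.mul_le_mul (by omega) h1
  w := by
    rw [card_sys]
    exact w201 hp

theorem bnd (p : Z.Pat) : ∃ L : ℕ, ∀ i k, ∀ h ∈ p.N i k, h.natAbs ≤ L := by
  have h1 : ∀ x : p.I × p.K, ∃ L : ℕ, ∀ h ∈ p.N x.1 x.2, h.natAbs ≤ L := fun x =>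
    ⟨(p.N x.1 x.2).sup Int.natAbs, fun h hh => le_sup (f := Int.natAbs) hh⟩
  choose f hf using h1
  exact ⟨univ.sup f, fun i k h hh => (hf (i, k) h hh).trans (le_sup (f := f) (mem_univ (i, k)))⟩

/-- The heights are bounded independently of the number of blocks. -/
theorem ht201 (p : Z.Pat) : ∃ L : ℕ, ∀ n : ℕ, ∀ q : Port (sys p n),
    ((sys p n).ht q).natAbs ≤ L := by
  obtain ⟨L, hL⟩ := bnd p
  exact ⟨L, fun n q => hL _ _ _ q.1.2.2⟩

end Ok201

theorem stmtSysOk : StmtSysOk := by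
  intro p hp
  obtain ⟨L, hL⟩ := Ok201.ht201 p
  exact ⟨2 * p.Ttot + Fintype.card p.K, L, fun n _ => ⟨Ok201.ok201 hp n, hL n, Ok201.card_sys⟩⟩

end Vale.Agent.P201.S
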