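import Vale.Agent.P201.S.B.StmtB

/-! P201 / P194: kept only as an alias, `stmtB` is in `S/B/StmtB.lean`. -/
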