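import Vale.Agent.P201.S.Defs

/-!
P201: evaluation of the weight of letters.  All unfoldings of `wtl` by the simplifier are made in this file
(otherwise every module which unfolds `wtl` makes its own private copy of the same auxiliary lemmas).
-/

namespace Vale.Agent.P201.S

theorem wtl_t {S : Sys} (Y : ℕ) : wtl Y (Let.t : Let S) = 0 := by simp [wtl]

theorem wtl_x {S : Sys} (Y : ℕ) (r : S.R) : wtl Y (Let.x r : Let S) = 1 := by simp [wtl]

theorem wtl_y {S : Sys} (Y : ℕ) (b : S.B) : wtl Y (Let.y b : Let S) = Y := by simp [wtl]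

/-- powers of `t` have weight zero -/
theorem wtw_tw_zero {S : Sys} (Y : ℕ) (m : ℤ) : wtw Y (tw S m) = 0 := by
  simp [wtw, tw, wtl]

/-- weight of a relator -/
theorem wtw_relw {S : Sys} {σ : Equiv.Perm S.C} (Y : ℕ) (q : Port S) :
    wtw Y (relw σ q) = 2 + 2 * Y := by
  unfold relw half winv tw wtw
  simp [wtl]
  ring

end Vale.Agent.P201.S
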